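import Vale.Agent.N100.Op

/-!
P100 (helper5): the radial system in the logarithmic variable; shooting.
-/

set_option linter.all false

namespace Vale.Agent.N100

open MeasureTheory Set Filter Topology Real

noncomputable section

/-- power of the positive part -/
def P (r : ℝ) (w : ℝ → ℝ) (s : ℝ) : ℝ := (max (w s) 0) ^ r

theorem P_nonneg (r : ℝ) (w : ℝ → ℝ) (s : ℝ) : 0 ≤ P r w s := rpow_nonneg (le_max_right _ _) _

theorem P_le {r x : ℝ} (hr : 0 < r) {w : ℝ → ℝ} {s : ℝ} (hx : 0 ≤ x) (h : w s ≤ x) :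
    P r w s ≤ x ^ r := rpow_le_rpow (le_max_right _ _) (max_le h hx) hr.le

theorem le_P {r x : ℝ} (hr : 0 < r) {w : ℝ → ℝ} {s : ℝ} (hx : 0 ≤ x) (h : x ≤ w s) :
    x ^ r ≤ P r w s := rpow_le_rpow hx (h.trans (le_max_left _ _)) hr.le

theorem P_mono {r : ℝ} (hr : 0 < r) {w w' : ℝ → ℝ} {s : ℝ} (h : w s ≤ w' s) :
    P r w s ≤ P r w' s := rpow_le_rpow (le_max_right _ _) (max_le_max h le_rfl) hr.le

theorem P_eq {r : ℝ} {w : ℝ → ℝ} {s : ℝ} (h : 0 ≤ w s) : P r w s = w s ^ r := by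
  unfold P
  rw [max_eq_left h]

theorem cont_pp {r : ℝ} (hr : 0 < r) : Continuous fun x : ℝ => (max x 0) ^ r :=
  (continuous_id.max continuous_const).rpow_const fun _ => Or.inr hr.le

theorem P_good {r M : ℝ} (hr : 0 < r) {w : ℝ → ℝ} (hw : Measurable w) (hM : 0 ≤ M)
    (h : ∀ s, w s ≤ M) : Good (M ^ r) (P r w) :=
  ⟨(cont_pp hr).measurable.comp hw, P_nonneg r w, fun s => P_le hr hM (h s)⟩

theorem P_cont {r : ℝ} (hr : 0 < r) {w : ℝ → ℝ} (hw : Continuous w) : Continuous (P r w) :=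
  (cont_pp hr).comp hw

/-- the parameters -/
structure Par (m a b p q : ℝ) : Prop where
  hm : 0 < m
  ha : 0 < a
  hb : 0 < b
  hp : 0 < p
  hq : 0 < q

theorem Par.swap {m a b p q : ℝ} (h : Par m a b p q) : Par m b a q p :=
  ⟨h.hm, h.hb, h.ha, h.hq, h.hp⟩

/-- solutions of the integral system -/
structure Sol (m a b p q α β : ℝ) (U V : ℝ → ℝ) : Prop where
  hα : 0 < α
  hβ : 0 < β
  mU : Measurable U
  mV : Measurable V
  eU : ∀ t, U t = α - Op m a (P p V) t
  eV : ∀ t, V t = β - Op m b (P q U) t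

variable {m a b p q α β : ℝ} {U V : ℝ → ℝ}

namespace Sol

theorem swap (s : Sol m a b p q α β U V) : Sol m b a q p β α V U :=
  ⟨s.hβ, s.hα, s.mV, s.mU, s.eV, s.eU⟩

theorem U_le (h : Par m a b p q) (s : Sol m a b p q α β U V) (t : ℝ) : U t ≤ α := by
  rw [s.eU]
  have := Op_nonneg (a := a) h.hm (P_nonneg p V) t
  linarith

theorem good (h : Par m a b p q) (s : Sol m a b p q α β U V) : Good (β ^ p) (P p V) :=
  P_good h.hp s.mV s.hβ.le (s.swap.U_le h.swap)

theorem U_ge (h : Par m a b p q) (s : Sol m a b p q α β U V) (t : ℝ) :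
    α - exp (a * t) / (a * (a + m)) * β ^ p ≤ U t := by
  rw [s.eU]
  have := Op_le h.hm h.ha (s.good h) t
  linarith

theorem cont (h : Par m a b p q) (s : Sol m a b p q α β U V) : Continuous U := by
  rw [show U = fun t => α - Op m a (P p V) t from funext s.eU]
  exact continuous_const.sub (Op_cont h.hm h.ha (s.good h))

theorem contP (h : Par m a b p q) (s : Sol m a b p q α β U V) : Continuous (P p V) :=
  P_cont h.hp (s.swap.cont h.swap)

theorem deriv1 (h : Par m a b p q) (s : Sol m a b p q α β U V) (t : ℝ) :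
    HasDerivAt U (-Op1 m a (P p V) t) t := by
  rw [show U = fun t => α - Op m a (P p V) t from funext s.eU]
  exact (Op_deriv h.hm h.ha (s.good h) (s.contP h) t).const_sub α

theorem deriv2 (h : Par m a b p q) (s : Sol m a b p q α β U V) (t : ℝ) :
    HasDerivAt (fun t => -Op1 m a (P p V) t)
      (-(exp (a * t) * P p V t - m * Op1 m a (P p V) t)) t :=
  (Op1_deriv h.hm h.ha (s.good h) (s.contP h) t).neg

theorem tends (h : Par m a b p q) (s : Sol m a b p q α β U V) : Tendsto U atBot (𝓝 α) := by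
  have h1 : Tendsto (fun t => exp (a * t)) atBot (𝓝 0) :=
    tendsto_exp_atBot.comp (tendsto_id.const_mul_atBot h.ha)
  have h2 : Tendsto (fun t => α - exp (a * t) / (a * (a + m)) * β ^ p) atBot (𝓝 α) := by
    simpa using ((h1.div_const (a * (a + m))).mul_const (β ^ p)).const_sub α
  exact tendsto_of_tendsto_of_tendsto_of_le_of_le h2 tendsto_const_nhds (s.U_ge h) (s.U_le h)

theorem start (h : Par m a b p q) (s : Sol m a b p q α β U V) :
    ∃ T, ∀ t ≤ T, α / 2 ≤ U t := by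
  have := (s.tends h).eventually (lt_mem_nhds (show α / 2 < α by linarith [s.hα]))
  obtain ⟨T, hT⟩ := eventually_atBot.1 this
  exact ⟨T, fun t ht => (hT t ht).le⟩

theorem op1_pos (h : Par m a b p q) (s : Sol m a b p q α β U V) (t : ℝ) :
    0 < Op1 m a (P p V) t := by
  obtain ⟨T, hT⟩ := s.swap.start h.swap
  have hβ := s.hβ
  refine mul_pos (exp_pos _) (J_pos (s.good h) (by linarith [h.ha, h.hm])
    (T := T) (δ := (β / 2) ^ p) (by positivity) (fun t ht => le_P h.hp (by positivity) (hT t ht)) t)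

theorem anti (h : Par m a b p q) (s : Sol m a b p q α β U V) : StrictAnti U :=
  strictAnti_of_hasDerivAt_neg (s.deriv1 h) fun t => neg_lt_zero.2 (s.op1_pos h t)

/-- a zero of `V` where `U` is positive -/
theorem cross (h : Par m a b p q) (s : Sol m a b p q α β U V) {T : ℝ} (hU : 0 < U T)
    (hV : V T ≤ 0) : ∃ t, V t < 0 ∧ 0 < U t := by
  have h1 : ∀ᶠ t in 𝓝 T, 0 < U t := (s.cont h).continuousAt.eventually (lt_mem_nhds hU)
  obtain ⟨t, ht1, ht2⟩ := ((h1.filter_mono nhdsWithin_le_nhds).and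
    (self_mem_nhdsWithin (s := Ioi T))).exists
  exact ⟨t, lt_of_lt_of_le (s.swap.anti h.swap ht2) hV, ht1⟩

/-- the first zero -/
theorem first (h : Par m a b p q) (s : Sol m a b p q α β U V) {t0 : ℝ} (h0 : U t0 ≤ 0) :
    ∃ T, U T = 0 ∧ ∀ t < T, 0 < U t := by
  obtain ⟨T1, hT1⟩ := s.start h
  have hα := s.hα
  have h1 : (0 : ℝ) ∈ Icc (U t0) (U T1) := ⟨h0, by linarith [hT1 T1 le_rfl]⟩
  obtain ⟨T, hT⟩ := mem_range_of_exists_le_of_exists_ge (s.cont h) ⟨t0, h1.1⟩ ⟨T1, h1.2⟩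
  exact ⟨T, hT, fun t ht => hT ▸ s.anti h ht⟩

end Sol

theorem lip {r δ M : ℝ} (hr : 0 < r) (hδ : 0 < δ) (hM : 0 < M) : ∃ L : ℝ, 0 ≤ L ∧
    ∀ x y : ℝ, δ ≤ x → x ≤ M → y ≤ M → |(max x 0) ^ r - (max y 0) ^ r| ≤ L * |x - y| := by
  have h1 : ContDiffOn ℝ 1 (fun x : ℝ => x ^ r) (Icc (δ / 2) M) := fun x hx =>
    (contDiffAt_rpow_const_of_ne (by linarith [hx.1])).contDiffWithinAt
  obtain ⟨K, hK⟩ := h1.exists_lipschitzOnWith one_ne_zero (convex_Icc _ _) isCompact_Icc
  have hMr : 0 ≤ M ^ r := by positivity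
  refine ⟨K + 2 * M ^ r / δ, by positivity, fun x y hx hxM hyM => ?_⟩
  have hK0 : (0 : ℝ) ≤ K := K.2
  have h2 : 0 ≤ 2 * M ^ r / δ := by positivity
  have h3 := abs_nonneg (x - y)
  by_cases hy : δ / 2 ≤ y
  · have h4 := hK.dist_le_mul x ⟨by linarith, hxM⟩ y ⟨hy, hyM⟩
    rw [Real.dist_eq, Real.dist_eq] at h4
    rw [max_eq_left (by linarith), max_eq_left (by linarith)]
    nlinarith
  · rw [not_le] at hy
    have h4 : (max x 0) ^ r ≤ M ^ r := rpow_le_rpow (le_max_right _ _) (max_le hxM hM.le) hr.le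
    have h5 : (max y 0) ^ r ≤ M ^ r := rpow_le_rpow (le_max_right _ _) (max_le hyM hM.le) hr.le
    have h6 : 0 ≤ (max x 0) ^ r := rpow_nonneg (le_max_right _ _) _
    have h7 : 0 ≤ (max y 0) ^ r := rpow_nonneg (le_max_right _ _) _
    have h8 : |(max x 0) ^ r - (max y 0) ^ r| ≤ M ^ r := abs_le.2 ⟨by linarith, by linarith⟩
    have h9 : δ / 2 ≤ |x - y| := le_trans (by linarith) (le_abs_self _)
    have h10 : M ^ r = 2 * M ^ r / δ * (δ / 2) := by field_simp
    have h11 := mul_le_mul_of_nonneg_left h9 h2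
    nlinarith

/-- one half of the uniqueness estimate -/
theorem diff_le {U' V' D : ℝ → ℝ} (h : Par m a b p q) (s : Sol m a b p q α β U V)
    (s' : Sol m a b p q α β U' V') {T c M : ℝ} (hT : 0 < V T) (hc : 0 < c) (hca : c ≤ a)
    (hD : Good M D) (hVD : ∀ t ≤ T, |V t - V' t| ≤ D t) :
    ∃ C, 0 ≤ C ∧ ∀ t ≤ T, |U t - U' t| ≤ C * J c D t := by
  obtain ⟨L, hL0, hL⟩ := lip h.hp hT s.hβ
  have hm := h.hm
  refine ⟨exp ((a - c) * T) / m * L, by positivity, fun t ht => ?_⟩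
  rw [s.eU, s'.eU, sub_sub_sub_cancel_left, abs_sub_comm]
  refine Op_diff h.hm h.ha (s.good h) (s'.good h) hD hc fun r hr => ?_
  have hrT := hr.trans ht
  have h1 := hL (V r) (V' r) ((s.swap.anti h.swap).antitone hrT) (s.swap.U_le h.swap r)
    (s'.swap.U_le h.swap r)
  have h2 : exp (a * r) ≤ exp ((a - c) * T) * exp (c * r) := by
    rw [← exp_add]
    exact exp_le_exp.2 (by nlinarith)
  have h3 : |P p V r - P p V' r| ≤ L * D r :=
    h1.trans (mul_le_mul_of_nonneg_left (hVD r hrT) hL0)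
  calc exp (a * r) / m * |P p V r - P p V' r|
      ≤ exp ((a - c) * T) * exp (c * r) / m * (L * D r) :=
        mul_le_mul (div_le_div_of_nonneg_right h2 hm.le) h3 (abs_nonneg _) (by positivity)
    _ = _ := by ring

theorem uniq_lt {U' V' : ℝ → ℝ} (h : Par m a b p q) (s : Sol m a b p q α β U V)
    (s' : Sol m a b p q α β U' V') {T : ℝ} (hU : 0 < U T) (hV : 0 < V T) :
    U T = U' T ∧ V T = V' T := by
  set D : ℝ → ℝ := fun t => |U (min t T) - U' (min t T)| + |V (min t T) - V' (min t T)| with hD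
  have cU := s.cont h
  have cU' := s'.cont h
  have cV := s.swap.cont h.swap
  have cV' := s'.swap.cont h.swap
  have bd : ∀ {W W' : ℝ → ℝ} {x : ℝ}, StrictAnti W → StrictAnti W' → (∀ t, W t ≤ x) →
      (∀ t, W' t ≤ x) → ∀ t, |W (min t T) - W' (min t T)| ≤ 2 * x - W T - W' T := by
    intro W W' x a1 a2 b1 b2 t
    have c1 := a1.antitone (min_le_right t T)
    have c2 := a2.antitone (min_le_right t T)
    have d1 := b1 (min t T)
    have d2 := b2 (min t T)
    have e1 := b1 T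
    have e2 := b2 T
    exact abs_le.2 ⟨by linarith, by linarith⟩
  have hG : Good ((2 * α - U T - U' T) + (2 * β - V T - V' T)) D :=
    ⟨(by fun_prop : Continuous D).measurable, fun t => by positivity, fun t => add_le_add
      (bd (s.anti h) (s'.anti h) (s.U_le h) (s'.U_le h) t)
      (bd (s.swap.anti h.swap) (s'.swap.anti h.swap) (s.swap.U_le h.swap)
        (s'.swap.U_le h.swap) t)⟩
  have hc : 0 < min a b := lt_min h.ha h.hb
  have hDt : ∀ t ≤ T, D t = |U t - U' t| + |V t - V' t| := fun t ht => by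
    rw [hD]
    simp only [min_eq_left ht]
  obtain ⟨C1, a1, b1⟩ := diff_le h s s' hV hc (min_le_left _ _) hG fun t ht => by
    rw [hDt t ht]
    exact le_add_of_nonneg_left (abs_nonneg _)
  obtain ⟨C2, a2, b2⟩ := diff_le h.swap s.swap s'.swap hU hc (min_le_right _ _) hG fun t ht => by
    rw [hDt t ht]
    exact le_add_of_nonneg_right (abs_nonneg _)
  have h1 := gronwall hG hc (add_nonneg a1 a2) (T := T) (fun t ht => by
    rw [hDt t ht, add_mul]
    exact add_le_add (b1 t ht) (b2 t ht)) T le_rfl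
  rw [hDt T le_rfl] at h1
  have h2 := abs_nonneg (U T - U' T)
  have h3 := abs_nonneg (V T - V' T)
  exact ⟨sub_eq_zero.1 (abs_eq_zero.1 (by linarith)), sub_eq_zero.1 (abs_eq_zero.1 (by linarith))⟩

theorem eq_of_lt {f g : ℝ → ℝ} (hf : Continuous f) (hg : Continuous g) {T : ℝ}
    (h : ∀ t < T, f t = g t) : f T = g T := by
  have h1 : closure (Iio T) ⊆ {t | f t = g t} := closure_minimal h (isClosed_eq hf hg)
  rw [closure_Iio] at h1
  exact h1 (mem_Iic.2 le_rfl)

/-- the property that `V` vanishes first depends on the data only -/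
theorem cross_uniq {U' V' : ℝ → ℝ} (h : Par m a b p q) (s : Sol m a b p q α β U V)
    (s' : Sol m a b p q α β U' V') (hx : ∃ t, V t < 0 ∧ 0 < U t) : ∃ t, V' t < 0 ∧ 0 < U' t := by
  obtain ⟨t, h1, h2⟩ := hx
  obtain ⟨T, hT, hT'⟩ := s.swap.first h.swap h1.le
  have hTt : T ≤ t := by
    by_contra hcon
    linarith [hT' t (not_le.1 hcon)]
  have hU : ∀ r ≤ T, 0 < U r := fun r hr => h2.trans_le ((s.anti h).antitone (hr.trans hTt))
  have h3 : ∀ r < T, U r = U' r ∧ V r = V' r := fun r hr => uniq_lt h s s' (hU r hr.le) (hT' r hr)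
  have h4 := eq_of_lt (s.cont h) (s'.cont h) fun r hr => (h3 r hr).1
  have h5 := eq_of_lt (s.swap.cont h.swap) (s'.swap.cont h.swap) fun r hr => (h3 r hr).2
  exact s'.cross h (h4 ▸ hU T le_rfl) (by rw [← h5, hT])

/-- limits of solutions -/
theorem sol_limit (h : Par m a b p q) {αk βk : ℕ → ℝ} {Uk Vk : ℕ → ℝ → ℝ} {M : ℝ}
    (s : ∀ k, Sol m a b p q (αk k) (βk k) (Uk k) (Vk k)) (hα : 0 < α) (hβ : 0 < β)
    (h1 : ∀ k, αk k ≤ M) (h2 : ∀ k, βk k ≤ M) (tα : Tendsto αk atTop (𝓝 α))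
    (tβ : Tendsto βk atTop (𝓝 β)) (tU : ∀ t, Tendsto (fun k => Uk k t) atTop (𝓝 (U t)))
    (tV : ∀ t, Tendsto (fun k => Vk k t) atTop (𝓝 (V t))) : Sol m a b p q α β U V := by
  have hM : 0 ≤ M := (s 0).hα.le.trans (h1 0)
  refine ⟨hα, hβ, measurable_of_tendsto_metrizable (fun k => (s k).mU) (tendsto_pi_nhds.2 tU),
    measurable_of_tendsto_metrizable (fun k => (s k).mV) (tendsto_pi_nhds.2 tV),
    fun t => ?_, fun t => ?_⟩
  · have h3 := tα.sub (Op_tendsto h.hm h.ha (F := fun k => P p (Vk k)) (f := P p V)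
      (fun k => P_good h.hp (s k).mV hM fun r => ((s k).swap.U_le h.swap r).trans (h2 k))
      (fun r => ((cont_pp h.hp).tendsto _).comp (tV r)) t)
    exact tendsto_nhds_unique (tU t) (h3.congr fun k => ((s k).eU t).symm)
  · have h3 := tβ.sub (Op_tendsto h.hm h.hb (F := fun k => P q (Uk k)) (f := P q U)
      (fun k => P_good h.hq (s k).mU hM fun r => ((s k).U_le h r).trans (h1 k))
      (fun r => ((cont_pp h.hq).tendsto _).comp (tU r)) t)
    exact tendsto_nhds_unique (tV t) (h3.congr fun k => ((s k).eV t).symm)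

/-! ### existence by monotone iteration -/

def T2 (m b q β : ℝ) (U : ℝ → ℝ) (t : ℝ) : ℝ := β - Op m b (P q U) t

def it (m a b p q β : ℝ) : ℕ → ℝ → ℝ
  | 0 => fun _ => 1
  | k + 1 => T2 m a p 1 (T2 m b q β (it m a b p q β k))

theorem T2_le (hm : 0 < m) (b q β : ℝ) (U : ℝ → ℝ) (t : ℝ) : T2 m b q β U t ≤ β := by
  have := Op_nonneg (a := b) hm (P_nonneg q U) t
  unfold T2
  linarith

theorem T2_meas (hm : 0 < m) (hb : 0 < b) (hq : 0 < q) (β : ℝ) {M : ℝ} (hM : 0 ≤ M)
    (hU : Measurable U) (hUM : ∀ t, U t ≤ M) : Measurable (T2 m b q β U) :=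
  (continuous_const.sub (Op_cont hm hb (P_good hq hU hM hUM))).measurable

theorem T2_anti (hm : 0 < m) (hb : 0 < b) (hq : 0 < q) {β β' M : ℝ} (hβ : β ≤ β') (hM : 0 ≤ M)
    {U' : ℝ → ℝ} (hU : Measurable U) (hU' : Measurable U') (hUM : ∀ t, U t ≤ M)
    (h : ∀ t, U' t ≤ U t) (t : ℝ) : T2 m b q β U t ≤ T2 m b q β' U' t := by
  have := Op_mono hm hb (P_good hq hU' hM fun t => (h t).trans (hUM t)) (P_good hq hU hM hUM)
    (t := t) fun s _ => P_mono hq (h s)
  unfold T2
  linarith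

theorem it_le (h : Par m a b p q) (β : ℝ) (k : ℕ) (t : ℝ) : it m a b p q β k t ≤ 1 := by
  rcases k with _ | k
  · exact le_rfl
  · exact T2_le h.hm _ _ _ _ t

theorem it_meas (h : Par m a b p q) (hβ : 0 < β) (k : ℕ) : Measurable (it m a b p q β k) := by
  induction k with
  | zero => exact measurable_const
  | succ k ih =>
    exact T2_meas h.hm h.ha h.hp 1 hβ.le
      (T2_meas h.hm h.hb h.hq β zero_le_one ih (it_le h β k)) (T2_le h.hm _ _ _ _)

theorem it_step (h : Par m a b p q) {β' : ℝ} (hβ : 0 < β) (hβ' : β ≤ β') {k k' : ℕ}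
    (H : ∀ t, it m a b p q β' k' t ≤ it m a b p q β k t) (t : ℝ) :
    it m a b p q β' (k' + 1) t ≤ it m a b p q β (k + 1) t :=
  T2_anti h.hm h.ha h.hp le_rfl (hβ.trans_le hβ').le
    (T2_meas h.hm h.hb h.hq β' zero_le_one (it_meas h (hβ.trans_le hβ') k') (it_le h β' k'))
    (T2_meas h.hm h.hb h.hq β zero_le_one (it_meas h hβ k) (it_le h β k))
    (T2_le h.hm _ _ _ _)
    (T2_anti h.hm h.hb h.hq hβ' zero_le_one (it_meas h hβ k) (it_meas h (hβ.trans_le hβ') k')
      (it_le h β k) H) t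

theorem it_anti (h : Par m a b p q) (hβ : 0 < β) (k : ℕ) :
    ∀ t, it m a b p q β (k + 1) t ≤ it m a b p q β k t := by
  induction k with
  | zero => exact fun t => it_le h β 1 t
  | succ k ih => exact it_step h hβ le_rfl ih

theorem it_par (h : Par m a b p q) {β' : ℝ} (hβ : 0 < β) (hβ' : β ≤ β') (k : ℕ) :
    ∀ t, it m a b p q β' k t ≤ it m a b p q β k t := by
  induction k with
  | zero => exact fun t => le_rfl
  | succ k ih => exact it_step h hβ hβ' ih

theorem it_bdd (h : Par m a b p q) (hβ : 0 < β) (t : ℝ) :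
    BddBelow (range fun k => it m a b p q β k t) := by
  refine ⟨1 - exp (a * t) / (a * (a + m)) * β ^ p, ?_⟩
  rintro _ ⟨k, rfl⟩
  have h1 := Op_le h.hm h.ha (P_good h.hp
    (T2_meas h.hm h.hb h.hq β zero_le_one (it_meas h hβ k) (it_le h β k)) hβ.le
    (T2_le h.hm _ _ _ _)) t
  refine le_trans ?_ (it_anti h hβ k t)
  change _ ≤ 1 - _
  linarith

/-- the largest solution -/
def UU (m a b p q β : ℝ) (t : ℝ) : ℝ := ⨅ k, it m a b p q β k t

def VV (m a b p q β : ℝ) : ℝ → ℝ := T2 m b q β (UU m a b p q β)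

theorem it_tendsto (h : Par m a b p q) (hβ : 0 < β) (t : ℝ) :
    Tendsto (fun k => it m a b p q β k t) atTop (𝓝 (UU m a b p q β t)) :=
  tendsto_atTop_ciInf (antitone_nat_of_succ_le fun k => it_anti h hβ k t) (it_bdd h hβ t)

theorem UU_meas (h : Par m a b p q) (hβ : 0 < β) : Measurable (UU m a b p q β) :=
  measurable_of_tendsto_metrizable (it_meas h hβ) (tendsto_pi_nhds.2 (it_tendsto h hβ))

theorem UU_le (h : Par m a b p q) (hβ : 0 < β) (t : ℝ) : UU m a b p q β t ≤ 1 :=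
  ciInf_le (it_bdd h hβ t) 0

theorem sol_UU (h : Par m a b p q) (hβ : 0 < β) :
    Sol m a b p q 1 β (UU m a b p q β) (VV m a b p q β) := by
  refine ⟨one_pos, hβ, UU_meas h hβ,
    T2_meas h.hm h.hb h.hq β zero_le_one (UU_meas h hβ) (UU_le h hβ), fun t => ?_, fun t => rfl⟩
  have h1 : ∀ r, Tendsto (fun k => T2 m b q β (it m a b p q β k) r) atTop
      (𝓝 (VV m a b p q β r)) := fun r =>
    (Op_tendsto h.hm h.hb (F := fun k => P q (it m a b p q β k))
      (fun k => P_good h.hq (it_meas h hβ k) zero_le_one (it_le h β k))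
      (fun r => ((cont_pp h.hq).tendsto _).comp (it_tendsto h hβ r)) r).const_sub β
  have h2 := (Op_tendsto h.hm h.ha (F := fun k => P p (T2 m b q β (it m a b p q β k)))
    (f := P p (VV m a b p q β))
    (fun k => P_good h.hp (T2_meas h.hm h.hb h.hq β zero_le_one (it_meas h hβ k) (it_le h β k))
      hβ.le (T2_le h.hm _ _ _ _))
    (fun r => ((cont_pp h.hp).tendsto _).comp (h1 r)) t).const_sub 1
  exact tendsto_nhds_unique ((it_tendsto h hβ t).comp (tendsto_add_atTop_nat 1)) h2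

theorem UU_anti (h : Par m a b p q) {β' : ℝ} (hβ : 0 < β) (hβ' : β ≤ β') (t : ℝ) :
    UU m a b p q β' t ≤ UU m a b p q β t :=
  le_of_tendsto_of_tendsto' (it_tendsto h (hβ.trans_le hβ') t) (it_tendsto h hβ t)
    fun k => it_par h hβ hβ' k t

theorem VV_mono (h : Par m a b p q) {β' : ℝ} (hβ : 0 < β) (hβ' : β ≤ β') (t : ℝ) :
    VV m a b p q β t ≤ VV m a b p q β' t :=
  T2_anti h.hm h.hb h.hq hβ' zero_le_one (UU_meas h hβ) (UU_meas h (hβ.trans_le hβ'))
    (UU_le h hβ) (UU_anti h hβ hβ') t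

end

end Vale.Agent.N100
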