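import Mathlib

/-!
P100 (helper5): the integral operator solving `w'' + m w' = exp (a t) f (t)` with zero data at
minus infinity.
-/

set_option linter.all false

namespace Vale.Agent.N100

open MeasureTheory Set Filter Topology Real

noncomputable section

/-- measurable, with values in `[0, M]` -/
structure Good (M : ℝ) (f : ℝ → ℝ) : Prop where
  meas : Measurable f
  nonneg : ∀ s, 0 ≤ f s
  le : ∀ s, f s ≤ M

theorem Good.M_nonneg {M : ℝ} {f : ℝ → ℝ} (h : Good M f) : 0 ≤ M := (h.nonneg 0).trans (h.le 0)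

theorem good_const {c : ℝ} (hc : 0 ≤ c) : Good c (fun _ => c) :=
  ⟨measurable_const, fun _ => hc, fun _ => le_rfl⟩

def J (c : ℝ) (f : ℝ → ℝ) (t : ℝ) : ℝ := ∫ s in Iic t, exp (c * s) * f s

/-- the kernel -/
def ker (m a t s : ℝ) : ℝ := (exp (a * s) - exp (-(m * t)) * exp ((a + m) * s)) / m

def Op (m a : ℝ) (f : ℝ → ℝ) (t : ℝ) : ℝ := ∫ s in Iic t, ker m a t s * f s

theorem ker_eq (m a t s : ℝ) : ker m a t s = exp (a * s) * (1 - exp (m * (s - t))) / m := by
  unfold ker
  have : exp (-(m * t)) * exp ((a + m) * s) = exp (a * s) * exp (m * (s - t)) := by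
    rw [← exp_add, ← exp_add]
    congr 1
    ring
  rw [this]
  ring

theorem ker_nonneg {m : ℝ} (hm : 0 < m) (a : ℝ) {t s : ℝ} (h : s ≤ t) : 0 ≤ ker m a t s := by
  rw [ker_eq]
  have h1 : exp (m * (s - t)) ≤ 1 := exp_le_one_iff.2 (by nlinarith)
  have h2 := exp_pos (a * s)
  exact div_nonneg (mul_nonneg h2.le (by linarith)) hm.le

theorem ker_le {m : ℝ} (hm : 0 < m) (a t s : ℝ) : ker m a t s ≤ exp (a * s) / m := by
  rw [ker_eq]
  have h1 := exp_pos (m * (s - t))
  have h2 := exp_pos (a * s)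
  exact div_le_div_of_nonneg_right (by nlinarith) hm.le

theorem intJ {M c : ℝ} {f : ℝ → ℝ} (h : Good M f) (hc : 0 < c) (t : ℝ) :
    IntegrableOn (fun s => exp (c * s) * f s) (Iic t) := by
  refine Integrable.mono' ((integrableOn_exp_mul_Iic hc t).mul_const M) ?_ ?_
  · exact ((by fun_prop : Measurable fun s => exp (c * s)).mul h.meas).aestronglyMeasurable
  · refine Eventually.of_forall fun s => ?_
    rw [Real.norm_eq_abs, abs_of_nonneg (mul_nonneg (exp_pos _).le (h.nonneg s))]
    exact mul_le_mul_of_nonneg_left (h.le s) (exp_pos _).le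

theorem J_const {c : ℝ} (hc : 0 < c) (k t : ℝ) : J c (fun _ => k) t = exp (c * t) / c * k := by
  unfold J
  rw [integral_mul_const, integral_exp_mul_Iic hc]

theorem J_nonneg {c : ℝ} {f : ℝ → ℝ} (h : ∀ s, 0 ≤ f s) (t : ℝ) : 0 ≤ J c f t :=
  setIntegral_nonneg measurableSet_Iic fun s _ => mul_nonneg (exp_pos _).le (h s)

theorem J_mono {M M' c : ℝ} {f g : ℝ → ℝ} (hf : Good M f) (hg : Good M' g) (hc : 0 < c) {t : ℝ}
    (h : ∀ s ≤ t, f s ≤ g s) : J c f t ≤ J c g t :=
  setIntegral_mono_on (intJ hf hc t) (intJ hg hc t) measurableSet_Iic fun s hs =>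
    mul_le_mul_of_nonneg_left (h s hs) (exp_pos _).le

theorem J_le {M c : ℝ} {f : ℝ → ℝ} (hf : Good M f) (hc : 0 < c) (t : ℝ) :
    J c f t ≤ exp (c * t) / c * M := by
  rw [← J_const hc]
  exact J_mono hf (good_const hf.M_nonneg) hc fun s _ => hf.le s

theorem J_eq {M c : ℝ} {f : ℝ → ℝ} (hf : Good M f) (hc : 0 < c) :
    J c f = fun t => J c f 0 + ∫ s in (0 : ℝ)..t, exp (c * s) * f s := by
  funext t
  have := intervalIntegral.integral_Iic_sub_Iic (intJ hf hc 0) (intJ hf hc t)
  unfold J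
  linarith

theorem intJ' {M c : ℝ} {f : ℝ → ℝ} (hf : Good M f) (hc : 0 < c) (x y : ℝ) :
    IntervalIntegrable (fun s => exp (c * s) * f s) volume x y := by
  rw [intervalIntegrable_iff]
  exact (intJ hf hc (max x y)).mono_set fun s hs => hs.2

theorem J_cont {M c : ℝ} {f : ℝ → ℝ} (hf : Good M f) (hc : 0 < c) : Continuous (J c f) := by
  rw [J_eq hf hc]
  exact continuous_const.add (intervalIntegral.continuous_primitive (intJ' hf hc) 0)

theorem J_deriv {M c : ℝ} {f : ℝ → ℝ} (hf : Good M f) (hfc : Continuous f) (hc : 0 < c) (t : ℝ) :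
    HasDerivAt (J c f) (exp (c * t) * f t) t := by
  rw [J_eq hf hc]
  have h1 : Continuous fun s => exp (c * s) * f s := by fun_prop
  exact (intervalIntegral.integral_hasDerivAt_right (intJ' hf hc 0 t)
    (h1.stronglyMeasurableAtFilter _ _) h1.continuousAt).const_add _

theorem J_pos {M c : ℝ} {f : ℝ → ℝ} (hf : Good M f) (hc : 0 < c) {T δ : ℝ} (hδ : 0 < δ)
    (h : ∀ s ≤ T, δ ≤ f s) (t : ℝ) : 0 < J c f t := by
  have h1 : J c (fun _ => δ) (min t T) ≤ J c f (min t T) :=
    J_mono (good_const hδ.le) hf hc fun s hs => h s (hs.trans (min_le_right _ _))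
  have h2 : J c f (min t T) ≤ J c f t :=
    setIntegral_mono_set (intJ hf hc t)
      (Eventually.of_forall fun s => mul_nonneg (exp_pos _).le (hf.nonneg s))
      (Eventually.of_forall (Iic_subset_Iic.2 (min_le_left _ _)))
  rw [J_const hc] at h1
  have h3 : 0 < exp (c * min t T) / c * δ := by positivity
  linarith

variable {m a : ℝ}

theorem intOp {M : ℝ} {f : ℝ → ℝ} (hm : 0 < m) (ha : 0 < a) (h : Good M f) (t : ℝ) :
    IntegrableOn (fun s => ker m a t s * f s) (Iic t) := by
  have h1 := ((intJ h ha t).sub ((intJ h (by linarith : 0 < a + m) t).const_mul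
    (exp (-(m * t))))).div_const m
  refine IntegrableOn.congr_fun h1 (fun s _ => ?_) measurableSet_Iic
  unfold ker
  simp only [Pi.sub_apply]
  ring

theorem Op_eq {M : ℝ} {f : ℝ → ℝ} (hm : 0 < m) (ha : 0 < a) (h : Good M f) :
    Op m a f = fun t => (J a f t - exp (-(m * t)) * J (a + m) f t) / m := by
  funext t
  unfold Op J
  rw [← integral_const_mul, ← integral_sub (intJ h ha t)
    ((intJ h (by linarith : 0 < a + m) t).const_mul _), ← integral_div]
  congr 1
  funext s
  unfold ker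
  ring

theorem Op_nonneg {f : ℝ → ℝ} (hm : 0 < m) (h : ∀ s, 0 ≤ f s) (t : ℝ) : 0 ≤ Op m a f t :=
  setIntegral_nonneg measurableSet_Iic fun s hs => mul_nonneg (ker_nonneg hm a hs) (h s)

theorem Op_mono {M M' : ℝ} {f g : ℝ → ℝ} (hm : 0 < m) (ha : 0 < a) (hf : Good M f)
    (hg : Good M' g) {t : ℝ} (h : ∀ s ≤ t, f s ≤ g s) : Op m a f t ≤ Op m a g t :=
  setIntegral_mono_on (intOp hm ha hf t) (intOp hm ha hg t) measurableSet_Iic fun s hs =>
    mul_le_mul_of_nonneg_left (h s hs) (ker_nonneg hm a hs)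

theorem Op_const (hm : 0 < m) (ha : 0 < a) {k : ℝ} (hk : 0 ≤ k) (t : ℝ) :
    Op m a (fun _ => k) t = exp (a * t) / (a * (a + m)) * k := by
  rw [Op_eq hm ha (good_const hk)]
  simp only
  rw [J_const ha, J_const (by linarith)]
  have : exp ((a + m) * t) = exp (a * t) * exp (m * t) := by
    rw [← exp_add]
    congr 1
    ring
  rw [this, exp_neg]
  have h1 := exp_pos (m * t)
  have h2 : 0 < a + m := by linarith
  field_simp
  ring

theorem Op_le {M : ℝ} {f : ℝ → ℝ} (hm : 0 < m) (ha : 0 < a) (hf : Good M f) (t : ℝ) :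
    Op m a f t ≤ exp (a * t) / (a * (a + m)) * M := by
  rw [← Op_const hm ha hf.M_nonneg]
  exact Op_mono hm ha hf (good_const hf.M_nonneg) fun s _ => hf.le s

theorem Op_cont {M : ℝ} {f : ℝ → ℝ} (hm : 0 < m) (ha : 0 < a) (hf : Good M f) :
    Continuous (Op m a f) := by
  rw [Op_eq hm ha hf]
  have h1 := J_cont hf ha
  have h2 := J_cont hf (by linarith : 0 < a + m)
  fun_prop

/-- the derivative of `Op` -/
def Op1 (m a : ℝ) (f : ℝ → ℝ) (t : ℝ) : ℝ := exp (-(m * t)) * J (a + m) f t

theorem hasDerivAt_expneg (m t : ℝ) :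
    HasDerivAt (fun t => exp (-(m * t))) (exp (-(m * t)) * (-m)) t := by
  have h : HasDerivAt (fun t => -(m * t)) (-m) t := by
    have h := ((hasDerivAt_id t).const_mul m).neg
    rw [mul_one] at h
    exact h
  exact h.exp

theorem exp_cancel (m a t : ℝ) : exp (-(m * t)) * exp ((a + m) * t) = exp (a * t) := by
  rw [← exp_add]
  congr 1
  ring

theorem Op_deriv {M : ℝ} {f : ℝ → ℝ} (hm : 0 < m) (ha : 0 < a) (hf : Good M f)
    (hfc : Continuous f) (t : ℝ) : HasDerivAt (Op m a f) (Op1 m a f t) t := by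
  rw [Op_eq hm ha hf]
  have h1 := J_deriv hf hfc ha t
  have h2 := J_deriv hf hfc (by linarith : 0 < a + m) t
  have h3 := (h1.sub ((hasDerivAt_expneg m t).mul h2)).div_const m
  refine h3.congr_deriv ?_
  unfold Op1
  rw [← mul_assoc, exp_cancel]
  field_simp
  ring

theorem Op1_deriv {M : ℝ} {f : ℝ → ℝ} (hm : 0 < m) (ha : 0 < a) (hf : Good M f)
    (hfc : Continuous f) (t : ℝ) :
    HasDerivAt (Op1 m a f) (exp (a * t) * f t - m * Op1 m a f t) t := by
  have h2 := J_deriv hf hfc (by linarith : 0 < a + m) t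
  have h3 := (hasDerivAt_expneg m t).mul h2
  refine h3.congr_deriv ?_
  unfold Op1
  rw [← mul_assoc, exp_cancel]
  ring

theorem Op1_nonneg {f : ℝ → ℝ} (h : ∀ s, 0 ≤ f s) (t : ℝ) : 0 ≤ Op1 m a f t :=
  mul_nonneg (exp_pos _).le (J_nonneg h t)

theorem Op1_le {M : ℝ} {f : ℝ → ℝ} (hm : 0 < m) (ha : 0 < a) (hf : Good M f) (t : ℝ) :
    Op1 m a f t ≤ exp (a * t) / (a + m) * M := by
  unfold Op1
  refine (mul_le_mul_of_nonneg_left (J_le hf (by linarith) t) (exp_pos _).le).trans
    (le_of_eq ?_)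
  rw [← exp_cancel m a t]
  ring

theorem Op_tendsto {M : ℝ} {F : ℕ → ℝ → ℝ} {f : ℝ → ℝ} (hm : 0 < m) (ha : 0 < a)
    (hF : ∀ k, Good M (F k)) (h : ∀ s, Tendsto (fun k => F k s) atTop (𝓝 (f s))) (t : ℝ) :
    Tendsto (fun k => Op m a (F k) t) atTop (𝓝 (Op m a f t)) := by
  unfold Op
  refine tendsto_integral_of_dominated_convergence (fun s => exp (a * s) / m * M)
    (fun k => (intOp hm ha (hF k) t).aestronglyMeasurable) ?_ (fun k => ?_)
    (Eventually.of_forall fun s => (h s).const_mul _)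
  · exact ((integrableOn_exp_mul_Iic ha t).div_const m).mul_const M
  · rw [ae_restrict_iff' measurableSet_Iic]
    refine Eventually.of_forall fun s hs => ?_
    rw [Real.norm_eq_abs, abs_of_nonneg (mul_nonneg (ker_nonneg hm a hs) ((hF k).nonneg s))]
    exact mul_le_mul (ker_le hm a t s) ((hF k).le s) ((hF k).nonneg s) (by positivity)

theorem Op_diff {M M' M'' : ℝ} {f g h : ℝ → ℝ} (hm : 0 < m) (ha : 0 < a) (hf : Good M f)
    (hg : Good M' g) (hh : Good M'' h) {c C t : ℝ} (hc : 0 < c)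
    (H : ∀ s ≤ t, exp (a * s) / m * |f s - g s| ≤ C * (exp (c * s) * h s)) :
    |Op m a f t - Op m a g t| ≤ C * J c h t := by
  unfold Op J
  rw [← integral_sub (intOp hm ha hf t) (intOp hm ha hg t), ← integral_const_mul]
  refine (abs_integral_le_integral_abs).trans ?_
  refine setIntegral_mono_on ((intOp hm ha hf t).sub (intOp hm ha hg t)).abs
    ((intJ hh hc t).const_mul C) measurableSet_Iic fun s hs => ?_
  refine le_trans ?_ (H s hs)
  rw [← mul_sub, abs_mul, abs_of_nonneg (ker_nonneg hm a hs)]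
  exact mul_le_mul_of_nonneg_right (ker_le hm a t s) (abs_nonneg _)

/-- Gronwall at minus infinity -/
theorem gronwall {M c C T : ℝ} {D : ℝ → ℝ} (hD : Good M D) (hc : 0 < c) (hC : 0 ≤ C)
    (h : ∀ t ≤ T, D t ≤ C * J c D t) : ∀ t ≤ T, D t = 0 := by
  have hM := hD.M_nonneg
  have h1 : ∀ k : ℕ, ∀ t ≤ T, D t ≤ M * ((C / c * exp (c * t)) ^ k / k.factorial) := by
    intro k
    induction k with
    | zero => intro t _; simpa using hD.le t
    | succ k ih =>
      intro t ht
      refine (h t ht).trans ?_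
      have hk : 0 < c * (k + 1) := by positivity
      have h2 : J c D t ≤ J (c * (k + 1)) (fun _ => M * ((C / c) ^ k / k.factorial)) t := by
        refine setIntegral_mono_on (intJ hD hc t)
          (intJ (good_const (by positivity)) hk t) measurableSet_Iic fun s hs => ?_
        refine (mul_le_mul_of_nonneg_left (ih s (hs.trans ht)) (exp_pos _).le).trans
          (le_of_eq ?_)
        have : exp (c * (k + 1) * s) = exp (c * s) * exp (c * s) ^ k := by
          rw [← exp_nat_mul, ← exp_add]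
          congr 1
          ring
        rw [this, mul_pow]
        ring
      rw [J_const hk] at h2
      refine (mul_le_mul_of_nonneg_left h2 hC).trans (le_of_eq ?_)
      have : exp (c * (k + 1) * t) = exp (c * t) ^ (k + 1) := by
        rw [← exp_nat_mul]
        congr 1
        push_cast
        ring
      rw [this, mul_pow, Nat.factorial_succ, pow_succ (C / c)]
      have h3 : (0 : ℝ) < k.factorial := by exact_mod_cast k.factorial_pos
      generalize (C / c) ^ k = y
      push_cast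
      field_simp
  intro t ht
  refine le_antisymm ?_ (hD.nonneg t)
  have h2 := (FloorSemiring.tendsto_pow_div_factorial_atTop (C / c * exp (c * t))).const_mul M
  rw [mul_zero] at h2
  exact ge_of_tendsto' h2 fun k => h1 k t ht

end

end Vale.Agent.N100
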