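import Vale.Agent.N100.Shoot
import Vale.Agent.P100.H20.Liouville

/-!
P100 (helper5): the Laplacian in polar form; radial solutions; the Kelvin transform.
-/

set_option linter.all false

namespace Vale.Agent.N100

open Set Filter Topology Real Vale.Agent.P100 Vale.Agent.P100.RM

noncomputable section

variable {n : ℕ}

theorem second_unique {g g1 k1 : ℝ → ℝ} {x y : ℝ} (h1 : ∀ t, HasDerivAt g (g1 t) t)
    (h2 : ∀ t, HasDerivAt g (k1 t) t) (h3 : HasDerivAt g1 x 0) (h4 : HasDerivAt k1 y 0) :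
    g1 0 = k1 0 ∧ x = y := by
  have e : g1 = k1 := funext fun t => (h1 t).unique (h2 t)
  subst e
  exact ⟨rfl, h3.unique h4⟩

theorem exp_smul_ne {x : E n} (hx : x ≠ 0) (t : ℝ) : exp t • x ≠ 0 :=
  smul_ne_zero (exp_pos t).ne' hx

theorem ray {w : E n → ℝ} (hw : ContDiffOn ℝ 2 w {0}ᶜ) {x : E n} (hx : x ≠ 0) (t : ℝ) :
    HasDerivAt (fun s => w (exp s • x)) (fderiv ℝ w (exp t • x) (exp t • x)) t ∧
    HasDerivAt (fun s => fderiv ℝ w (exp s • x) (exp s • x))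
      (fderiv ℝ (fderiv ℝ w) (exp t • x) (exp t • x) (exp t • x) +
        fderiv ℝ w (exp t • x) (exp t • x)) t :=
  hasDerivAt_along (u := w) (c := fun s => exp s • x) (c1 := fun s => exp s • x)
    (c2 := exp t • x) (s := t) (eventually_differentiableAt hw (exp_smul_ne hx t))
    (differentiableAt_fderiv_of_ne hw (exp_smul_ne hx t)) (hasDerivAt_expsmul t x)
    (hasDerivAt_expsmul t x)

theorem polar {w : E n → ℝ} (hw : ContDiffOn ℝ 2 w {0}ᶜ) {x : E n} (hx : x ≠ 0) {g1 : ℝ → ℝ}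
    {g2 : ℝ} (h1 : ∀ t, HasDerivAt (fun s => w (exp s • x)) (g1 t) t) (h2 : HasDerivAt g1 g2 0) :
    ‖x‖ ^ 2 * Laplacian.laplacian w x = g2 + ((n : ℝ) - 2) * g1 0 + sph w x := by
  obtain ⟨e1, e2⟩ := second_unique h1 (fun t => (ray hw hx t).1) h2 (ray hw hx 0).2
  simp only [exp_zero, one_smul] at e1 e2
  rw [e1, e2]
  unfold sph
  rw [finrank_euclideanSpace_fin]
  ring

theorem sph_comp {w u : E n → ℝ} (hw : ContDiffOn ℝ 2 w {0}ᶜ) (hu : ContDiffOn ℝ 2 u {0}ᶜ)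
    {x y : E n} (hx : x ≠ 0) (hy : y ≠ 0) {k c : ℝ}
    (h : ∀ R : E n ≃ₗᵢ[ℝ] E n, w (R x) = k + c * u (R y)) : sph w x = c * sph u y := by
  have h1 : ∀ z : Kp n, rot2 w (ev n z.1.1) (ev n z.1.2) x =
      c * rot2 u (ev n z.1.1) (ev n z.1.2) y := by
    intro z
    have a1 := hasDerivAt_rot hw (ev_norm z.1.1) (ev_norm z.1.2) (ev_inner z) hx
    have a2 := hasDerivAt_rot hu (ev_norm z.1.1) (ev_norm z.1.2) (ev_inner z) hy
    have e : (fun φ => w (rotV (ev n z.1.1) (ev n z.1.2) φ x)) =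
        fun φ => k + c * u (rotV (ev n z.1.1) (ev n z.1.2) φ y) :=
      funext fun φ => h (rotE (ev_norm z.1.1) (ev_norm z.1.2) (ev_inner z) φ)
    have a3 := (second_unique (fun φ => (a1 φ).1)
      (fun φ => by rw [e]; exact (((a2 φ).1).const_mul c).const_add k) (a1 0).2
      (((a2 0).2).const_mul c)).2
    simpa only [rotV_zero] using a3
  have h2 := sum_rot2 w (ev n) x
  have h3 := sum_rot2 u (ev n) y
  rw [Finset.sum_congr rfl fun z _ => h1 z, ← Finset.mul_sum, h3] at h2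
  linarith

/-! ### extension to the origin -/

open Classical in
def ext (w : E n → ℝ) (l : ℝ) : E n → ℝ := Function.update w 0 l

theorem ext_ne (w : E n → ℝ) (l : ℝ) {x : E n} (hx : x ≠ 0) : ext w l x = w x := by
  classical
  unfold ext
  convert Function.update_of_ne hx l w

theorem ext_zero (w : E n → ℝ) (l : ℝ) : ext w l 0 = l := by
  classical
  unfold ext
  convert Function.update_self 0 l w

theorem ext_ev (w : E n → ℝ) (l : ℝ) {x : E n} (hx : x ≠ 0) : ext w l =ᶠ[𝓝 x] w := by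
  filter_upwards [isOpen_compl_singleton.mem_nhds hx] with y hy
  exact ext_ne w l hy

theorem ext_cd {w : E n → ℝ} (hw : ContDiffOn ℝ 2 w {0}ᶜ) (l : ℝ) :
    ContDiffOn ℝ 2 (ext w l) {0}ᶜ := hw.congr fun _ hx => ext_ne w l hx

theorem ext_lap (w : E n → ℝ) (l : ℝ) {x : E n} (hx : x ≠ 0) :
    Laplacian.laplacian (ext w l) x = Laplacian.laplacian w x :=
  (InnerProductSpace.laplacian_congr_nhds (ext_ev w l hx)).self_of_nhds

theorem ext_cont {w : E n → ℝ} (hw : ContDiffOn ℝ 2 w {0}ᶜ) {l : ℝ}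
    (h : Tendsto w (𝓝[≠] 0) (𝓝 l)) : Continuous (ext w l) := by
  classical
  refine continuous_iff_continuousAt.2 fun x => ?_
  by_cases hx : x = 0
  · subst hx
    unfold ext
    convert continuousAt_update_same.2 h
  · exact (contDiffAt_of_ne hw hx).continuousAt.congr (ext_ev w l hx).symm

/-! ### radial functions -/

theorem rad_cd {U : ℝ → ℝ} (hU : ContDiff ℝ 2 U) :
    ContDiffOn ℝ 2 (fun x : E n => U (log ‖x‖)) {0}ᶜ := fun x hx =>
  (hU.contDiffAt.comp x ((contDiffAt_norm ℝ hx).log (norm_ne_zero_iff.2 hx))).contDiffWithinAt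

theorem rad_lap {U U1 U2 : ℝ → ℝ} (hU : ContDiff ℝ 2 U) (h1 : ∀ t, HasDerivAt U (U1 t) t)
    (h2 : ∀ t, HasDerivAt U1 (U2 t) t) {x : E n} (hx : x ≠ 0) :
    ‖x‖ ^ 2 * Laplacian.laplacian (fun x : E n => U (log ‖x‖)) x =
      U2 (log ‖x‖) + ((n : ℝ) - 2) * U1 (log ‖x‖) := by
  have hx0 : 0 < ‖x‖ := norm_pos_iff.2 hx
  have e : ∀ s, log ‖exp s • x‖ = s + log ‖x‖ := fun s => by
    rw [norm_smul, Real.norm_eq_abs, abs_of_pos (exp_pos s), log_mul (exp_pos s).ne' hx0.ne',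
      log_exp]
  have h3 := polar (rad_cd hU) hx (g1 := fun s => U1 (s + log ‖x‖)) (g2 := U2 (0 + log ‖x‖))
    (fun t => by simp only [e]; exact (h1 _).comp_add_const t _) ((h2 _).comp_add_const 0 _)
  have h4 := sph_comp (rad_cd hU) (rad_cd hU) hx hx (k := U (log ‖x‖)) (c := 0) fun R => by
    rw [R.norm_map, zero_mul, add_zero]
  rw [h3, h4]
  simp

variable {m a b p q α β : ℝ} {U V : ℝ → ℝ}

theorem Sol.cd (h : Par m a b p q) (s : Sol m a b p q α β U V) : ContDiff ℝ 2 U := by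
  have e1 : deriv U = fun t => -Op1 m a (P p V) t := funext fun t => (s.deriv1 h t).deriv
  have e2 : deriv (fun t => -Op1 m a (P p V) t) =
      fun t => -(exp (a * t) * P p V t - m * Op1 m a (P p V) t) :=
    funext fun t => (s.deriv2 h t).deriv
  have c1 : Continuous (Op1 m a (P p V)) := continuous_iff_continuousAt.2 fun t =>
    (Op1_deriv h.hm h.ha (s.good h) (s.contP h) t).continuousAt
  have c2 := s.contP h
  rw [show (2 : WithTop ℕ∞) = 1 + 1 from rfl, contDiff_succ_iff_deriv, e1, contDiff_one_iff_deriv,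
    e2]
  refine ⟨fun t => (s.deriv1 h t).differentiableAt, by simp,
    fun t => (s.deriv2 h t).differentiableAt, by fun_prop⟩

theorem tendsto_log_norm : Tendsto (fun x : E n => log ‖x‖) (𝓝[≠] 0) atBot :=
  tendsto_log_nhdsGT_zero.comp tendsto_norm_nhdsNE_zero

theorem Sol.rad_eq {A : ℝ} (h : Par ((n : ℝ) - 2) (2 + A) b p q)
    (s : Sol ((n : ℝ) - 2) (2 + A) b p q α β U V) (hV : ∀ t, 0 < V t) {x : E n} (hx : x ≠ 0) :
    -(Laplacian.laplacian (ext (fun x : E n => U (log ‖x‖)) α) x) =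
      ‖x‖ ^ A * ext (fun x : E n => V (log ‖x‖)) β x ^ p := by
  have hx0 : 0 < ‖x‖ := norm_pos_iff.2 hx
  have h1 := rad_lap (s.cd h) (s.deriv1 h) (s.deriv2 h) hx
  rw [ext_lap _ _ hx, ext_ne _ _ hx]
  rw [P_eq (hV _).le] at h1
  have h2 : exp ((2 + A) * log ‖x‖) = ‖x‖ ^ 2 * ‖x‖ ^ A := by
    rw [mul_comm, ← rpow_def_of_pos hx0, rpow_add hx0, rpow_two]
  rw [h2] at h1
  refine mul_left_cancel₀ (pow_ne_zero 2 hx0.ne') ?_
  linarith

/-- **existence on and above the critical hyperbola** -/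
theorem exists_solution {A B : ℝ} (hn : 2 ≤ n) (hp : 0 < p) (hq : 0 < q) (hA : -2 < A)
    (hB : -2 < B) (hw : ((n : ℝ) + A) / (p + 1) + ((n : ℝ) + B) / (q + 1) ≤ (n : ℝ) - 2) :
    ∃ u v : E n → ℝ, IsPositiveEntireSolution n p q A B u v := by
  have hn2 : (2 : ℝ) ≤ n := by exact_mod_cast hn
  have h1 : 0 < ((n : ℝ) + A) / (p + 1) := div_pos (by linarith) (by linarith)
  have h2 : 0 < ((n : ℝ) + B) / (q + 1) := div_pos (by linarith) (by linarith)
  have h : Par ((n : ℝ) - 2) (2 + A) (2 + B) p q :=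
    ⟨by linarith, by linarith, by linarith, hp, hq⟩
  obtain ⟨β, U, V, s, hpos⟩ := exists_entire h (by
    rw [show 2 + A + ((n : ℝ) - 2) = n + A by ring, show 2 + B + ((n : ℝ) - 2) = n + B by ring]
    exact hw)
  refine ⟨ext (fun x => U (log ‖x‖)) 1, ext (fun x => V (log ‖x‖)) β,
    ext_cd (rad_cd (s.cd h)) _, ext_cd (rad_cd (s.swap.cd h.swap)) _,
    ext_cont (rad_cd (s.cd h)) ((s.tends h).comp tendsto_log_norm),
    ext_cont (rad_cd (s.swap.cd h.swap)) ((s.swap.tends h.swap).comp tendsto_log_norm),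
    fun x => ?_, fun x => ?_, fun x hx => s.rad_eq h (fun t => (hpos t).2) hx,
    fun x hx => s.swap.rad_eq h.swap (fun t => (hpos t).1) hx⟩
  · by_cases hx : x = 0
    · rw [hx, ext_zero]
      exact one_pos
    · rw [ext_ne _ _ hx]
      exact (hpos _).1
  · by_cases hx : x = 0
    · rw [hx, ext_zero]
      exact s.hβ
    · rw [ext_ne _ _ hx]
      exact (hpos _).2

/-! ### the Kelvin transform -/

def inv (x : E n) : E n := (‖x‖ ^ 2)⁻¹ • x

theorem inv_ne {x : E n} (hx : x ≠ 0) : inv x ≠ 0 :=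
  smul_ne_zero (inv_ne_zero (pow_ne_zero 2 (norm_ne_zero_iff.2 hx))) hx

theorem norm_inv' {x : E n} (hx : x ≠ 0) : ‖inv x‖ = ‖x‖⁻¹ := by
  have hx0 : 0 < ‖x‖ := norm_pos_iff.2 hx
  unfold inv
  rw [norm_smul, Real.norm_eq_abs, abs_of_pos (by positivity)]
  field_simp

theorem inv_inv' {x : E n} (hx : x ≠ 0) : inv (inv x) = x := by
  have hx0 : 0 < ‖x‖ := norm_pos_iff.2 hx
  rw [inv, norm_inv' hx, inv, smul_smul]
  have : (‖x‖⁻¹ ^ 2)⁻¹ * (‖x‖ ^ 2)⁻¹ = 1 := by field_simp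
  rw [this, one_smul]

def kel (u : E n → ℝ) (x : E n) : ℝ := ‖x‖ ^ (-((n : ℝ) - 2)) * u (inv x)

theorem kel_cd {u : E n → ℝ} (hu : ContDiffOn ℝ 2 u {0}ᶜ) : ContDiffOn ℝ 2 (kel u) {0}ᶜ := by
  intro x hx
  have hx0 : ‖x‖ ≠ 0 := norm_ne_zero_iff.2 hx
  have h1 : ContDiffAt ℝ 2 (inv : E n → E n) x :=
    (((contDiffAt_norm ℝ hx).pow 2).inv (pow_ne_zero 2 hx0)).smul contDiffAt_id
  exact (((contDiffAt_norm ℝ hx).rpow_const_of_ne hx0).mul
    ((contDiffAt_of_ne hu (inv_ne hx)).comp x h1)).contDiffWithinAt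

theorem kel_lap {u : E n → ℝ} (hu : ContDiffOn ℝ 2 u {0}ᶜ) {x : E n} (hx : x ≠ 0) :
    ‖x‖ ^ 2 * Laplacian.laplacian (kel u) x =
      ‖x‖ ^ (-((n : ℝ) - 2)) * (‖inv x‖ ^ 2 * Laplacian.laplacian u (inv x)) := by
  have hx0 : 0 < ‖x‖ := norm_pos_iff.2 hx
  have hy := inv_ne hx
  set m : ℝ := (n : ℝ) - 2 with hm
  set c : ℝ := ‖x‖ ^ (-m) with hc
  set y := inv x with hyd
  set h0 : ℝ → ℝ := fun s => u (exp s • y) with hh0
  set h1 : ℝ → ℝ := fun s => fderiv ℝ u (exp s • y) (exp s • y) with hh1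
  obtain ⟨h2, hh2⟩ : ∃ h2, HasDerivAt h1 h2 0 := ⟨_, (ray hu hy 0).2⟩
  have d0 : ∀ t, HasDerivAt h0 (h1 t) t := fun t => (ray hu hy t).1
  have p1 := polar hu hy d0 hh2
  have e : ∀ s, kel u (exp s • x) = c * (exp (-(m * s)) * h0 (-s)) := by
    intro s
    have e1 : ‖exp s • x‖ = exp s * ‖x‖ := by
      rw [norm_smul, Real.norm_eq_abs, abs_of_pos (exp_pos s)]
    have e2 : inv (exp s • x) = exp (-s) • y := by
      rw [hyd, inv, inv, e1, smul_smul, smul_smul, exp_neg]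
      congr 1
      have := exp_pos s
      field_simp
    unfold kel
    rw [e2, e1, mul_rpow (exp_pos s).le hx0.le, ← exp_mul, hh0, ← hm, ← hc,
      show s * -m = -(m * s) by ring]
    ring
  have dn : ∀ {f : ℝ → ℝ} {f' t : ℝ}, HasDerivAt f f' (-t) →
      HasDerivAt (fun s => f (-s)) (-f') t := fun {f f' t} hf => by
    have := hf.comp t (hasDerivAt_neg t)
    rw [mul_neg, mul_one] at this
    exact this
  have g1 : ∀ t, HasDerivAt (fun s => kel u (exp s • x))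
      (c * (exp (-(m * t)) * (-m) * h0 (-t) + exp (-(m * t)) * -h1 (-t))) t := fun t => by
    simp only [e]
    exact ((hasDerivAt_expneg m t).mul (dn (d0 (-t)))).const_mul c
  have g2 := (((((hasDerivAt_expneg m 0).mul_const (-m)).mul (dn (t := 0) (d0 (-0)))).add
    ((hasDerivAt_expneg m 0).mul (dn (t := 0) (f := h1) (f' := h2)
      (by rw [neg_zero]; exact hh2)).neg)).const_mul c)
  have p2 := polar (kel_cd hu) hx g1 g2
  have p3 := sph_comp (kel_cd hu) hu hx hy (k := 0) (c := c) fun R => by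
    unfold kel
    rw [hyd, inv, inv, R.norm_map, map_smul, zero_add]
  rw [p2, p3, p1]
  simp only [Pi.neg_apply, mul_zero, neg_zero, exp_zero]
  ring

theorem kel_eq {A : ℝ} {K u v : E n → ℝ} (hK : IsHomogeneousWeight n A K)
    (hu : ContDiffOn ℝ 2 u {0}ᶜ) (hv : ∀ x, x ≠ 0 → 0 ≤ v x)
    (he : ∀ x, x ≠ 0 → -(Laplacian.laplacian u x) = K x * v x ^ p) (l l' : ℝ) {x : E n}
    (hx : x ≠ 0) : -(Laplacian.laplacian (ext (kel u) l) x) =
      (‖x‖ ^ (p * ((n : ℝ) - 2) - ((n : ℝ) + 2) - 2 * A) * K x) * ext (kel v) l' x ^ p := by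
  have hx0 : 0 < ‖x‖ := norm_pos_iff.2 hx
  have h1 := kel_lap hu hx
  have h2 := he _ (inv_ne hx)
  have h0 : K (inv x) = ‖x‖ ^ (-(2 : ℝ) * A) * K x := by
    rw [inv, hK.homogeneous x hx _ (by positivity), ← rpow_two, ← rpow_neg hx0.le,
      ← rpow_mul hx0.le]
  rw [ext_lap _ _ hx, ext_ne _ _ hx]
  rw [norm_inv' hx] at h1
  rw [h0] at h2
  refine mul_left_cancel₀ (pow_ne_zero 2 hx0.ne') ?_
  rw [mul_neg, h1, ← neg_inj.2 h2.symm |>.trans (neg_neg _), kel,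
    mul_rpow (by positivity) (hv _ (inv_ne hx)), ← rpow_mul hx0.le, inv_pow, ← rpow_two,
    ← rpow_neg hx0.le]
  have h3 : ‖x‖ ^ (-((n : ℝ) - 2)) * ‖x‖ ^ (-(2 : ℝ)) * ‖x‖ ^ (-(2 : ℝ) * A) =
      ‖x‖ ^ (2 : ℝ) * ‖x‖ ^ (p * ((n : ℝ) - 2) - ((n : ℝ) + 2) - 2 * A) *
        ‖x‖ ^ (-((n : ℝ) - 2) * p) := by
    rw [← rpow_add hx0, ← rpow_add hx0, ← rpow_add hx0, ← rpow_add hx0]
    congr 1
    ring
  linear_combination K x * v (inv x) ^ p * h3

theorem hom_mul {A : ℝ} {K : E n → ℝ} (hK : IsHomogeneousWeight n A K) (c : ℝ) :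
    IsHomogeneousWeight n (c + A) (fun x => ‖x‖ ^ c * K x) :=
  ⟨(continuous_norm.continuousOn.rpow_const fun x hx => Or.inl (norm_ne_zero_iff.2 hx)).mul
      hK.continuousOn,
    fun x hx => mul_pos (rpow_pos_of_pos (norm_pos_iff.2 hx) _) (hK.pos x hx), fun x hx t ht => by
      rw [norm_smul, Real.norm_of_nonneg ht.le, mul_rpow ht.le (norm_nonneg _),
        hK.homogeneous x hx t ht, rpow_add ht]
      ring⟩

theorem kel_tendsto {u : E n → ℝ} {l : ℝ}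
    (h : Tendsto (fun x => ‖x‖ ^ ((n : ℝ) - 2) * u x) (Bornology.cobounded (E n)) (𝓝 l)) :
    Tendsto (kel u) (𝓝[≠] 0) (𝓝 l) := by
  have h1 : Tendsto (inv : E n → E n) (𝓝[≠] 0) (Bornology.cobounded (E n)) := by
    rw [← tendsto_norm_atTop_iff_cobounded]
    refine (tendsto_inv_nhdsGT_zero.comp tendsto_norm_nhdsNE_zero).congr' ?_
    filter_upwards [self_mem_nhdsWithin] with x hx
    exact (norm_inv' hx).symm
  refine (h.comp h1).congr' ?_
  filter_upwards [self_mem_nhdsWithin] with x hx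
  have hx0 : 0 < ‖x‖ := norm_pos_iff.2 hx
  simp only [Function.comp, kel]
  rw [norm_inv' hx, inv_rpow hx0.le, ← rpow_neg hx0.le]

theorem hom_rpow (A : ℝ) : IsHomogeneousWeight n A (fun x => ‖x‖ ^ A) :=
  ⟨continuous_norm.continuousOn.rpow_const fun x hx => Or.inl (norm_ne_zero_iff.2 hx),
    fun x hx => rpow_pos_of_pos (norm_pos_iff.2 hx) _, fun x hx t ht => by
      rw [norm_smul, Real.norm_of_nonneg ht.le, mul_rpow ht.le (norm_nonneg _)]⟩

/-- **the dual Liouville theorem** -/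
theorem dual {A B : ℝ} (hn : 2 ≤ n) (hp : 0 < p) (hq : 0 < q)
    (hw : ((n : ℝ) + A) / (p + 1) + ((n : ℝ) + B) / (q + 1) < (n : ℝ) - 2 ∨
      p * ((n : ℝ) - 2) ≤ n + A ∨ q * ((n : ℝ) - 2) ≤ n + B)
    {K L u v : E n → ℝ} (hK : IsHomogeneousWeight n A K) (hL : IsHomogeneousWeight n B L)
    (hu : ContDiffOn ℝ 2 u {0}ᶜ) (hv : ContDiffOn ℝ 2 v {0}ᶜ)
    (pu : ∀ x, x ≠ 0 → 0 ≤ u x) (pv : ∀ x, x ≠ 0 → 0 ≤ v x)
    (eu : ∀ x, x ≠ 0 → -(Laplacian.laplacian u x) = K x * v x ^ p)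
    (ev : ∀ x, x ≠ 0 → -(Laplacian.laplacian v x) = L x * u x ^ q) {l l' : ℝ}
    (tu : Tendsto (fun x => ‖x‖ ^ ((n : ℝ) - 2) * u x) (Bornology.cobounded (E n)) (𝓝 l))
    (tv : Tendsto (fun x => ‖x‖ ^ ((n : ℝ) - 2) * v x) (Bornology.cobounded (E n)) (𝓝 l'))
    (x : E n) (hx : x ≠ 0) : u x = 0 ∧ v x = 0 := by
  have : Nontrivial (E n) := ⟨⟨x, 0, hx⟩⟩
  have nn : ∀ {w : E n → ℝ} {l : ℝ}, (∀ x, x ≠ 0 → 0 ≤ w x) → Tendsto (kel w) (𝓝[≠] 0) (𝓝 l) →
      ∀ x, 0 ≤ ext (kel w) l x := by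
    intro w l pw tw x
    have h1 : ∀ x : E n, x ≠ 0 → 0 ≤ kel w x := fun x hx =>
      mul_nonneg (rpow_nonneg (norm_nonneg _) _) (pw _ (inv_ne hx))
    by_cases hx : x = 0
    · rw [hx, ext_zero]
      exact ge_of_tendsto tw (eventually_nhdsWithin_of_forall h1)
    · rw [ext_ne _ _ hx]
      exact h1 x hx
  have hs : IsNonnegEntireSolutionW n p q
      (fun x => ‖x‖ ^ (p * ((n : ℝ) - 2) - ((n : ℝ) + 2) - 2 * A) * K x)
      (fun x => ‖x‖ ^ (q * ((n : ℝ) - 2) - ((n : ℝ) + 2) - 2 * B) * L x)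
      (ext (kel u) l) (ext (kel v) l') :=
    ⟨ext_cd (kel_cd hu) _, ext_cd (kel_cd hv) _, ext_cont (kel_cd hu) (kel_tendsto tu),
      ext_cont (kel_cd hv) (kel_tendsto tv), nn pu (kel_tendsto tu), nn pv (kel_tendsto tv),
      fun x hx => kel_eq hK hu pv eu l l' hx, fun x hx => kel_eq hL hv pu ev l' l hx⟩
  have hz := H20.liouville_homogeneous hn hp hq (by
    rcases hw with hw | hw | hw
    · left
      have hp1 : p + 1 ≠ 0 := by linarith
      have hq1 : q + 1 ≠ 0 := by linarith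
      have e1 : ((n : ℝ) + (p * ((n : ℝ) - 2) - ((n : ℝ) + 2) - 2 * A + A)) / (p + 1) =
          (n : ℝ) - 2 - ((n : ℝ) + A) / (p + 1) := by
        field_simp
        ring
      have e2 : ((n : ℝ) + (q * ((n : ℝ) - 2) - ((n : ℝ) + 2) - 2 * B + B)) / (q + 1) =
          (n : ℝ) - 2 - ((n : ℝ) + B) / (q + 1) := by
        field_simp
        ring
      rw [e1, e2]
      linarith
    · exact Or.inr (Or.inl (by linarith))
    · exact Or.inr (Or.inr (by linarith))) (hom_mul hK _) (hom_mul hL _) hs (inv x)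
  rw [ext_ne _ _ (inv_ne hx), ext_ne _ _ (inv_ne hx), kel, kel, inv_inv' hx] at hz
  have h1 : ‖inv x‖ ^ (-((n : ℝ) - 2)) ≠ 0 :=
    (rpow_pos_of_pos (norm_pos_iff.2 (inv_ne hx)) _).ne'
  exact ⟨(mul_eq_zero.1 hz.1).resolve_left h1, (mul_eq_zero.1 hz.2).resolve_left h1⟩

end

end Vale.Agent.N100
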