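import Vale.Agent.N100.Ode

/-!
P100 (helper5): the Pohozaev identity and the shooting argument.
-/

set_option linter.all false

namespace Vale.Agent.N100

open MeasureTheory Set Filter Topology Real

noncomputable section

variable {m a b p q α β : ℝ} {U V : ℝ → ℝ}

theorem hasDerivAt_expmul (c t : ℝ) : HasDerivAt (fun t => exp (c * t)) (exp (c * t) * c) t := by
  have h := ((hasDerivAt_id t).const_mul c).exp
  rw [mul_one] at h
  exact h

theorem tendsto_expmul {c : ℝ} (hc : 0 < c) : Tendsto (fun t => exp (c * t)) atBot (𝓝 0) :=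
  tendsto_exp_atBot.comp (tendsto_id.const_mul_atBot hc)

theorem Sol.op1_tends (h : Par m a b p q) (s : Sol m a b p q α β U V) :
    Tendsto (Op1 m a (P p V)) atBot (𝓝 0) := by
  have h2 : Tendsto (fun t => exp (a * t) / (a + m) * β ^ p) atBot (𝓝 0) := by
    simpa using ((tendsto_expmul h.ha).div_const (a + m)).mul_const (β ^ p)
  exact tendsto_of_tendsto_of_tendsto_of_le_of_le tendsto_const_nhds h2
    (Op1_nonneg (P_nonneg p V)) (Op1_le h.hm h.ha (s.good h))

/-- **Pohozaev**: no solution of the Dirichlet problem in a ball -/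
theorem pohozaev (h : Par m a b p q) (hw : (a + m) / (p + 1) + (b + m) / (q + 1) ≤ m)
    (s : Sol m a b p q α β U V) {T : ℝ} (hU : U T = 0) (hV : V T = 0) : False := by
  have hp1 : 0 < p + 1 := by linarith [h.hp]
  have hq1 : 0 < q + 1 := by linarith [h.hq]
  set a1 := (a + m) / (p + 1) with ha1
  set X := Op1 m a (P p V) with hX
  set Y := Op1 m b (P q U) with hY
  set F : ℝ → ℝ := fun t => exp (m * t) * (X t * Y t + exp (a * t) * V t ^ (p + 1) / (p + 1) +
    exp (b * t) * U t ^ (q + 1) / (q + 1) - a1 * (V t * X t) - (m - a1) * (U t * Y t)) with hF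
  have pU : ∀ t ≤ T, 0 ≤ U t := fun t ht => hU ▸ (s.anti h).antitone ht
  have pV : ∀ t ≤ T, 0 ≤ V t := fun t ht => hV ▸ (s.swap.anti h.swap).antitone ht
  have dF : ∀ t ≤ T, HasDerivAt F (exp (m * t) * (((b + m) / (q + 1) - (m - a1)) *
      (exp (b * t) * (U t ^ q * U t)))) t := by
    intro t ht
    have dU := s.deriv1 h t
    have dV := s.swap.deriv1 h.swap t
    have dX := Op1_deriv h.hm h.ha (s.good h) (s.contP h) t
    have dY := Op1_deriv h.hm h.hb (s.swap.good h.swap) (s.swap.contP h.swap) t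
    rw [P_eq (pV t ht)] at dX
    rw [P_eq (pU t ht)] at dY
    have dVp := dV.rpow_const (p := p + 1) (Or.inr (by linarith [h.hp]))
    have dUq := dU.rpow_const (p := q + 1) (Or.inr (by linarith [h.hq]))
    have h1 := (hasDerivAt_expmul m t).mul
      (((((dX.mul dY).add (((hasDerivAt_expmul a t).mul dVp).div_const (p + 1))).add
        (((hasDerivAt_expmul b t).mul dUq).div_const (q + 1))).sub
        ((dV.mul dX).const_mul a1)).sub ((dU.mul dY).const_mul (m - a1)))
    refine h1.congr_deriv ?_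
    simp only [Pi.add_apply, Pi.sub_apply, Pi.mul_apply, add_sub_cancel_right]
    rw [rpow_add_one' (pV t ht) hp1.ne', rpow_add_one' (pU t ht) hq1.ne', ← hX, ← hY, ha1]
    field_simp
    ring
  have anti : AntitoneOn F (Iic T) := by
    refine antitoneOn_of_deriv_nonpos (convex_Iic T)
      (fun t ht => (dF t ht).continuousAt.continuousWithinAt)
      (fun t ht => (dF t (mem_Iic.1 (interior_subset ht))).differentiableAt.differentiableWithinAt)
      fun t ht => ?_
    have ht' : t ≤ T := mem_Iic.1 (interior_subset ht)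
    rw [(dF t ht').deriv]
    refine mul_nonpos_of_nonneg_of_nonpos (exp_pos _).le
      (mul_nonpos_of_nonpos_of_nonneg (by linarith) ?_)
    exact mul_nonneg (exp_pos _).le (mul_nonneg (rpow_nonneg (pU t ht') _) (pU t ht'))
  have lim : Tendsto F atBot (𝓝 0) := by
    have tX := s.op1_tends h
    have tY := s.swap.op1_tends h.swap
    have tU := s.tends h
    have tV := s.swap.tends h.swap
    have h1 := (tendsto_expmul h.hm).mul
      (((((tX.mul tY).add (((tendsto_expmul h.ha).mul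
        (tV.rpow_const (p := p + 1) (Or.inr hp1.le))).div_const (p + 1))).add
        (((tendsto_expmul h.hb).mul
        (tU.rpow_const (p := q + 1) (Or.inr hq1.le))).div_const (q + 1))).sub
        ((tV.mul tX).const_mul a1)).sub ((tU.mul tY).const_mul (m - a1)))
    rw [zero_mul] at h1
    exact h1
  have h1 : F T ≤ 0 := ge_of_tendsto lim
    ((eventually_le_atBot T).mono fun t ht => anti ht (mem_Iic.2 le_rfl) ht)
  have h2 : 0 < F T := by
    have h3 := s.op1_pos h T
    have h4 := s.swap.op1_pos h.swap T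
    rw [hF]
    simp only [hU, hV, zero_rpow hp1.ne', zero_rpow hq1.ne', mul_zero, zero_mul, zero_div,
      add_zero, sub_zero]
    exact mul_pos (exp_pos _) (mul_pos h3 h4)
  linarith

theorem trichotomy (h : Par m a b p q) (hw : (a + m) / (p + 1) + (b + m) / (q + 1) ≤ m)
    (s : Sol m a b p q α β U V) :
    (∃ t, V t < 0 ∧ 0 < U t) ∨ (∃ t, U t < 0 ∧ 0 < V t) ∨ ∀ t, 0 < U t ∧ 0 < V t := by
  have key : ∀ {a b p q α β : ℝ} {U V : ℝ → ℝ}, Par m a b p q →
      (a + m) / (p + 1) + (b + m) / (q + 1) ≤ m → Sol m a b p q α β U V → ∀ t, U t ≤ 0 →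
      (∃ t, V t < 0 ∧ 0 < U t) ∨ (∃ t, U t < 0 ∧ 0 < V t) := by
    intro a b p q α β U V h hw s t ht
    obtain ⟨T, hT, hT'⟩ := s.first h ht
    rcases lt_trichotomy (V T) 0 with h1 | h1 | h1
    · obtain ⟨T2, h2, h3⟩ := s.swap.first h.swap h1.le
      have h4 : T2 < T := by
        by_contra hcon
        have := (s.swap.anti h.swap).antitone (not_lt.1 hcon)
        linarith
      exact Or.inl (s.cross h (hT' T2 h4) h2.le)
    · exact (pohozaev h hw s hT h1).elim
    · exact Or.inr (s.swap.cross h.swap h1 hT.le)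
  by_cases h1 : ∃ t, U t ≤ 0
  · obtain ⟨t, ht⟩ := h1
    rcases key h hw s t ht with h2 | h2
    · exact Or.inl h2
    · exact Or.inr (Or.inl h2)
  by_cases h2 : ∃ t, V t ≤ 0
  · obtain ⟨t, ht⟩ := h2
    rcases key h.swap (by linarith) s.swap t ht with h3 | h3
    · exact Or.inr (Or.inl h3)
    · exact Or.inl h3
  push Not at h1 h2
  exact Or.inr (Or.inr fun t => ⟨h1 t, h2 t⟩)

theorem Sol.small (h : Par m a b p q) (s : Sol m a b p q α β U V)
    (h1 : β ^ p / (a * (a + m)) ≤ α / 2) (h2 : β < (α / 2) ^ q / (b * (b + m))) :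
    V 0 < 0 ∧ 0 < U 0 := by
  have hα := s.hα
  have ham : 0 < a * (a + m) := mul_pos h.ha (by linarith [h.ha, h.hm])
  have hU : ∀ t ≤ 0, α / 2 ≤ U t := by
    intro t ht
    have h3 := s.U_ge h 0
    rw [mul_zero, exp_zero, div_mul_eq_mul_div, one_mul] at h3
    have h4 := (s.anti h).antitone ht
    linarith
  refine ⟨?_, by linarith [hU 0 le_rfl]⟩
  have h3 := Op_mono h.hm h.hb (good_const (c := (α / 2) ^ q) (by positivity))
    (s.swap.good h.swap) (t := 0) fun t ht => le_P h.hq (by positivity) (hU t ht)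
  rw [Op_const h.hm h.hb (by positivity), mul_zero, exp_zero, div_mul_eq_mul_div, one_mul] at h3
  rw [s.eV]
  linarith

theorem limit_sol (h : Par m a b p q) {βk : ℕ → ℝ} {M : ℝ} (hpos : ∀ k, 0 < βk k)
    (hM : ∀ k, βk k ≤ M) (hβ : 0 < β) (hmon : Monotone βk ∨ Antitone βk)
    (tβ : Tendsto βk atTop (𝓝 β)) : ∃ U V, Sol m a b p q 1 β U V ∧
      (∀ t, Tendsto (fun k => UU m a b p q (βk k) t) atTop (𝓝 (U t))) ∧
      ∀ t, Tendsto (fun k => VV m a b p q (βk k) t) atTop (𝓝 (V t)) := by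
  have hM0 : 0 < M := (hpos 0).trans_le (hM 0)
  have conv : ∀ (g : ℕ → ℝ) (lo hi : ℝ), (Monotone g ∨ Antitone g) → (∀ k, lo ≤ g k) →
      (∀ k, g k ≤ hi) → ∃ l, Tendsto g atTop (𝓝 l) := by
    intro g lo hi hg h1 h2
    rcases hg with hg | hg
    · exact ⟨_, tendsto_atTop_ciSup hg ⟨hi, by rintro _ ⟨k, rfl⟩; exact h2 k⟩⟩
    · exact ⟨_, tendsto_atTop_ciInf hg ⟨lo, by rintro _ ⟨k, rfl⟩; exact h1 k⟩⟩
  have h1 : ∀ t, ∃ l, Tendsto (fun k => UU m a b p q (βk k) t) atTop (𝓝 l) := fun t =>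
    conv _ (UU m a b p q M t) 1
      (hmon.symm.imp (fun hg i j hij => UU_anti h (hpos j) (hg hij) t)
        fun hg i j hij => UU_anti h (hpos i) (hg hij) t)
      (fun k => UU_anti h (hpos k) (hM k) t) fun k => UU_le h (hpos k) t
  have h2 : ∀ t, ∃ l, Tendsto (fun k => VV m a b p q (βk k) t) atTop (𝓝 l) := fun t =>
    conv _ (0 - exp (b * t) / (b * (b + m)) * 1 ^ q) M
      (hmon.imp (fun hg i j hij => VV_mono h (hpos i) (hg hij) t)
        fun hg i j hij => VV_mono h (hpos j) (hg hij) t)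
      (fun k => le_trans (by linarith [hpos k]) ((sol_UU h (hpos k)).swap.U_ge h.swap t))
      fun k => ((sol_UU h (hpos k)).swap.U_le h.swap t).trans (hM k)
  choose U hU using h1
  choose V hV using h2
  exact ⟨U, V, sol_limit h (αk := fun _ => 1) (M := max M 1) (fun k => sol_UU h (hpos k)) one_pos
    hβ (fun _ => le_max_right _ _) (fun k => (hM k).trans (le_max_left _ _)) tendsto_const_nhds
    tβ hU hV, hU, hV⟩

/-- **shooting** -/
theorem exists_entire (h : Par m a b p q) (hw : (a + m) / (p + 1) + (b + m) / (q + 1) ≤ m) :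
    ∃ β U V, Sol m a b p q 1 β U V ∧ ∀ t, 0 < U t ∧ 0 < V t := by
  have ham : 0 < a * (a + m) := mul_pos h.ha (by linarith [h.ha, h.hm])
  have hbm : 0 < b * (b + m) := mul_pos h.hb (by linarith [h.hb, h.hm])
  set X : Set ℝ := {β | 0 < β ∧ ∃ t, VV m a b p q β t < 0 ∧ 0 < UU m a b p q β t} with hX
  set Y : Set ℝ := {β | 0 < β ∧ ∃ t, UU m a b p q β t < 0 ∧ 0 < VV m a b p q β t} with hY
  have hXY : ∀ x ∈ X, ∀ y ∈ Y, x < y := by
    rintro x ⟨hx, t1, a1, a2⟩ y ⟨hy, t2, b1, b2⟩
    by_contra hcon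
    rw [not_lt] at hcon
    have c1 := UU_anti h hy hcon t2
    have c2 := VV_mono h hy hcon t2
    rcases le_total t1 t2 with h1 | h1
    · have := ((sol_UU h hx).swap.anti h.swap).antitone h1
      linarith
    · have := ((sol_UU h hx).anti h).antitone h1
      linarith
  obtain ⟨x0, hx0⟩ : X.Nonempty := by
    have t1 : Tendsto (fun β : ℝ => β ^ p / (a * (a + m))) (𝓝[>] 0) (𝓝 0) := by
      have := ((continuous_rpow_const h.hp.le).tendsto 0).div_const (a * (a + m))
      rw [zero_rpow h.hp.ne', zero_div] at this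
      exact this.mono_left nhdsWithin_le_nhds
    have e1 := t1.eventually (gt_mem_nhds (show (0 : ℝ) < 1 / 2 by norm_num))
    have e2 : ∀ᶠ β : ℝ in 𝓝[>] 0, β < (1 / 2) ^ q / (b * (b + m)) :=
      nhdsWithin_le_nhds (gt_mem_nhds (by positivity))
    obtain ⟨β, ⟨h1, h2⟩, h3⟩ := ((e1.and e2).and self_mem_nhdsWithin).exists
    exact ⟨β, h3, 0, (sol_UU h h3).small h h1.le h2⟩
  obtain ⟨y0, hy0⟩ : Y.Nonempty := by
    have t1 : Tendsto (fun β : ℝ => (β / 2) ^ p / (a * (a + m))) atTop atTop :=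
      ((tendsto_rpow_atTop h.hp).comp (tendsto_id.atTop_div_const two_pos)).atTop_div_const ham
    have t2 : Tendsto (fun β : ℝ => β / 2) atTop atTop := tendsto_id.atTop_div_const two_pos
    obtain ⟨β, ⟨h1, h2⟩, h3⟩ := (((t1.eventually_gt_atTop 1).and
      (t2.eventually_ge_atTop ((1 : ℝ) ^ q / (b * (b + m))))).and (eventually_gt_atTop 0)).exists
    exact ⟨β, h3, 0, (sol_UU h h3).swap.small h.swap h2 h1⟩
  have hbdd : BddAbove X := ⟨y0, fun x hx => (hXY x hx y0 hy0).le⟩
  set β := sSup X with hβ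
  have hβ0 : 0 < β := hx0.1.trans_le (le_csSup hbdd hx0)
  have tk : Tendsto (fun k : ℕ => 1 / ((k : ℝ) + 1)) atTop (𝓝 0) :=
    tendsto_one_div_add_atTop_nhds_zero_nat
  have ak : Antitone fun k : ℕ => 1 / ((k : ℝ) + 1) := fun i j hij =>
    one_div_le_one_div_of_le (by positivity) (by
      have : (i : ℝ) ≤ j := by exact_mod_cast hij
      linarith)
  have pk : ∀ k : ℕ, 0 < 1 / ((k : ℝ) + 1) := fun k => by positivity
  have lk : ∀ k : ℕ, 1 / ((k : ℝ) + 1) ≤ 1 := fun k => by
    simpa using ak (Nat.zero_le k)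
  rcases trichotomy h hw (sol_UU h hβ0) with h1 | h1 | h1
  · exfalso
    obtain ⟨U, V, s, tU, tV⟩ := limit_sol h (βk := fun k => β + 1 / ((k : ℝ) + 1)) (M := β + 1)
      (fun k => by linarith [pk k]) (fun k => by linarith [lk k]) hβ0
      (Or.inr fun i j hij => by linarith [ak hij]) (by simpa using tk.const_add β)
    obtain ⟨t, h2, h3⟩ := cross_uniq h (sol_UU h hβ0) s h1
    obtain ⟨k, h4, h5⟩ := (((tV t).eventually (gt_mem_nhds h2)).and
      ((tU t).eventually (lt_mem_nhds h3))).exists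
    have h6 : β + 1 / ((k : ℝ) + 1) ≤ β := le_csSup hbdd ⟨by linarith [pk k], t, h4, h5⟩
    linarith [pk k]
  · exfalso
    obtain ⟨U, V, s, tU, tV⟩ := limit_sol h (βk := fun k => β - β / 2 * (1 / ((k : ℝ) + 1)))
      (M := β) (fun k => by nlinarith [pk k, lk k]) (fun k => by nlinarith [pk k]) hβ0
      (Or.inl fun i j hij => by nlinarith [ak hij])
      (by simpa using (tk.const_mul (β / 2)).const_sub β)
    obtain ⟨t, h2, h3⟩ := cross_uniq h.swap (sol_UU h hβ0).swap s.swap h1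
    obtain ⟨k, h4, h5⟩ := (((tU t).eventually (gt_mem_nhds h2)).and
      ((tV t).eventually (lt_mem_nhds h3))).exists
    have h6 : β ≤ β - β / 2 * (1 / ((k : ℝ) + 1)) :=
      csSup_le ⟨x0, hx0⟩ fun x hx =>
        (hXY x hx _ ⟨by nlinarith [pk k, lk k], t, h4, h5⟩).le
    nlinarith [pk k]
  · exact ⟨β, _, _, sol_UU h hβ0, h1⟩

end

end Vale.Agent.N100
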